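import Vale.Agent.Lib.P344.Rank

/-!
# P344: every linear circuit for the discrete Fourier transform has at least `3n - 2 - d(n)` gates

For `n ≥ 2`, a linear circuit (gates `u + v`, `u - v`, `c * u`; sources: the constant `0`, the
inputs and earlier gates) whose designated outputs equal `F_n x` for every complex input `x` has
* at least `2n - 2` addition/subtraction gates,
* at least `n - d(n)` scalar multiplication gates, where `d(n)` is the number of divisors of `n`,
and hence at least `3n - 2 - d(n)` gates in total.
-/

namespace Vale.Agent.Results.P344.LowerBound3n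

open Vale.Agent.Lib.P344

theorem length_eq_countP (n : ℕ) (gates : List (Gate n)) :
    gates.length = gates.countP Gate.isSum + gates.countP Gate.isScalar := by
  induction gates with
  | nil => simp
  | cons g gs ih =>
    cases g <;> simp [List.countP_cons, Gate.isSum, Gate.isScalar, ih] <;> omega

theorem result (n : ℕ) (hn : 2 ≤ n) (gates : List (Gate n)) (out : Fin n → Src n)
    (hcomp : ∀ (x : Fin n → ℂ) (j : Fin n),
      (out j).read x (run x gates) =
        ∑ k : Fin n, Complex.exp (2 * Real.pi * Complex.I / n) ^ ((j : ℕ) * (k : ℕ)) * x k) :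
    2 * n ≤ gates.countP Gate.isSum + 2 ∧
    n ≤ gates.countP Gate.isScalar + n.divisors.card ∧
    3 * n ≤ gates.length + 2 + n.divisors.card := by
  have hn0 : n ≠ 0 := by omega
  set ζ : ℂ := Complex.exp (2 * Real.pi * Complex.I / n) with hζdef
  have hζ : IsPrimitiveRoot ζ n := Complex.isPrimitiveRoot_exp n hn0
  have hζ0 : ζ ≠ 0 := hζ.ne_zero hn0
  -- the symbolic values of the outputs are the rows of the Fourier matrix
  have hr : ∀ j : Fin n, (out j).read (ev n) (run (ev n) gates) =
      fun k : Fin n => ζ ^ ((j : ℕ) * (k : ℕ)) :=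
    fun j => out_vec gates (out j) _ (fun x => hcomp x j)
  have hsum : 2 * n ≤ gates.countP Gate.isSum + 2 := by
    apply sum_gates_bound hn gates out (fun j k => ζ ^ ((j : ℕ) * (k : ℕ))) hr
    · intro j i
      exact pow_ne_zero _ hζ0
    · intro j j' c hc
      have h0 := congrFun hc ⟨0, by omega⟩
      have h1 := congrFun hc ⟨1, by omega⟩
      simp only [Pi.smul_apply, smul_eq_mul, mul_zero, pow_zero, mul_one] at h0 h1
      rw [← h0, one_mul] at h1
      exact Fin.ext (hζ.pow_inj j.isLt j'.isLt h1)
  have hscal : n ≤ gates.countP Gate.isScalar + n.divisors.card := by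
    obtain ⟨W, hW, hval⟩ := scalar_span gates
    have hmem : ∀ j : Fin n, (fun k : Fin n => ζ ^ ((j : ℕ) * (k : ℕ))) ∈
        Submodule.span ℚ (Set.range (ev n) ∪ (W : Set (Fin n → ℂ))) := by
      intro j
      rw [← hr j]
      rcases Src.read_cases (ev n) (run (ev n) gates) (out j) with h0 | ⟨i, hi⟩ | hm
      · rw [h0]; exact Submodule.zero_mem _
      · rw [hi]; exact Submodule.subset_span (Or.inl ⟨i, rfl⟩)
      · exact hval _ hm
    have := dft_rank (by omega) ζ hζ W hmem
    omega
  refine ⟨hsum, hscal, ?_⟩
  rw [length_eq_countP]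
  omega

end Vale.Agent.Results.P344.LowerBound3n
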