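import Vale.Agent.Lib.P344.RobustCor

/-!
# P344: a determinant bound for the Fourier transform that tolerates large scalars

For a linear circuit computing `F_n x` and a threshold `B ≥ 1`, let `k` be the number of scalar
gates with `|c| > B`, `m` the number of scalar gates with `1 < |c| ≤ B` and `a` the number of
addition/subtraction gates.  Then `(n - k)^(n - k) ≤ 4^a * B^(2m)`.
-/

namespace Vale.Agent.Results.P344.RobustMorgenstern

open Vale.Agent.Lib.P344

theorem result (n : ℕ) (hn : 1 ≤ n) (gates : List (Gate n)) (out : Fin n → Src n)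
    (hcomp : ∀ (x : Fin n → ℂ) (j : Fin n),
      (out j).read x (run x gates) =
        ∑ k : Fin n, Complex.exp (2 * Real.pi * Complex.I / n) ^ ((j : ℕ) * (k : ℕ)) * x k)
    (B : ℝ) (hB : 1 ≤ B) (k m : ℕ)
    (hk : k = (gates.filter (fun g => decide (B < g.scal))).length)
    (hm : m = (gates.filter (fun g => decide (1 < g.scal ∧ g.scal ≤ B))).length) :
    ((n - k : ℕ) : ℝ) ^ (n - k) ≤ 4 ^ (gates.countP Gate.isSum) * B ^ (2 * m) := by
  subst hk hm
  exact robust_threshold n hn gates out hcomp B hB

end Vale.Agent.Results.P344.RobustMorgenstern
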