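import Vale.Agent.Lib.P344.RobustCor

/-!
# P344: the weighted determinant bound with exceptional gates

For a linear circuit computing `F_n x` and any Boolean test `exc` on gates, let `k` be the number
of gates of the circuit passing the test.  Then the product of the weights of the other gates
(`4` for an addition or subtraction, `max 1 |c|^2` for the multiplication by `c`) is at least
`(n - k)^(n - k)`.
-/

namespace Vale.Agent.Results.P344.RobustWeighted

open Vale.Agent.Lib.P344

theorem result (n : ℕ) (hn : 1 ≤ n) (gates : List (Gate n)) (out : Fin n → Src n)
    (hcomp : ∀ (x : Fin n → ℂ) (j : Fin n),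
      (out j).read x (run x gates) =
        ∑ k : Fin n, Complex.exp (2 * Real.pi * Complex.I / n) ^ ((j : ℕ) * (k : ℕ)) * x k)
    (exc : Gate n → Bool) :
    ((n - gates.countP exc : ℕ) : ℝ) ^ (n - gates.countP exc) ≤
      ((gates.filter (fun g => !exc g)).map Gate.wt).prod :=
  robust_bound n hn gates out _ (Complex.isPrimitiveRoot_exp n (by omega))
    (out_rows n gates out hcomp) exc

end Vale.Agent.Results.P344.RobustWeighted
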